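import Vale.Agent.P154.Pe.Def

/-!
# P154: mass lists of the Poisson evolution, mesh 16
-/

namespace Vale.Agent.P154

namespace Pe

/-- rounded Poisson weights -/
def cwA : List Nat :=
  [283197, 1155908, 2358995, 3209518, 3275018, 2673484, 1818697, 1060464, 541053, 245375, 100153,
  37162, 12640, 3968, 1157, 314]

/-- zeros -/
def zrA : List Nat :=
  [0, 0, 0, 0, 0, 0, 0, 0, 0, 0, 0, 0, 0, 0, 0, 0, 0, 0, 0, 0, 0, 0, 0, 0, 0, 0, 0, 0, 0, 0, 0, 0,
  0, 0, 0, 0, 0, 0, 0, 0, 0, 0, 0, 0, 0, 0, 0, 0, 0, 0, 0, 0, 0, 0, 0, 0, 0, 0, 0, 0, 0, 0, 0, 0,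
  0, 0, 0, 0, 0, 0, 0, 0, 0, 0, 0, 0, 0, 0, 0, 0, 0, 0, 0, 0, 0, 0, 0, 0, 0, 0, 0, 0, 0, 0, 0, 0,
  0, 0, 0, 0, 0, 0, 0, 0, 0, 0, 0, 0, 0, 0, 0, 0, 0, 0, 0, 0, 0, 0, 0, 0, 0, 0, 0, 0, 0, 0, 0, 0,
  0, 0, 0, 0, 0, 0, 0, 0, 0, 0, 0, 0, 0, 0, 0, 0, 0, 0, 0, 0, 0, 0, 0, 0, 0]

/-- masses after 0 generations -/
def pA_0 : List Nat :=
  [16777216, 0, 0, 0, 0, 0, 0, 0, 0, 0, 0, 0, 0, 0, 0, 0, 0, 0, 0, 0, 0, 0, 0, 0, 0, 0, 0, 0, 0, 0,
  0, 0, 0, 0, 0, 0, 0, 0, 0, 0, 0, 0, 0, 0, 0, 0, 0, 0, 0, 0, 0, 0, 0, 0, 0, 0, 0, 0, 0, 0, 0, 0,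
  0, 0, 0, 0, 0, 0, 0, 0, 0, 0, 0, 0, 0, 0, 0, 0, 0, 0, 0, 0, 0, 0, 0, 0, 0, 0, 0, 0, 0, 0, 0, 0,
  0, 0, 0, 0, 0, 0, 0, 0, 0, 0, 0, 0, 0, 0, 0, 0, 0, 0, 0, 0, 0, 0, 0, 0, 0, 0, 0, 0, 0, 0, 0, 0,
  0, 0, 0, 0, 0, 0, 0, 0, 0, 0, 0, 0, 0, 0, 0, 0, 0, 0, 0, 0, 0, 0, 0, 0, 0, 0, 0]

/-- masses after 45 generations -/
def pA_45 : List Nat :=
  [24423, 50852, 53197, 53416, 54381, 55741, 57566, 59683, 62091, 64850, 67862, 70928, 74391,
  77579, 80495, 83842, 36539, 34197, 70602, 71751, 73209, 75444, 78671, 82635, 87127, 92414, 97822,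
  104175, 110872, 117862, 124230, 131988, 67624, 38193, 77120, 78981, 81793, 85325, 89832, 94800,
  100180, 106745, 113853, 121852, 129208, 134481, 145399, 79403, 39923, 80755, 83263, 87044, 91051,
  95696, 101146, 107518, 115421, 123358, 129952, 135614, 150577, 80595, 40425, 82810, 86102, 90711,
  95671, 101455, 108914, 117129, 124715, 130988, 139233, 156765, 82105, 42489, 87961, 92251, 97065,
  103943, 112020, 119848, 126121, 132462, 145066, 162122, 82783, 44774, 92765, 98279, 104883,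
  112863, 120878, 127618, 134380, 152632, 166981, 84106, 47621, 99486, 108495, 117143, 123541,
  130150, 140235, 162401, 171354, 85218, 52276, 110073, 118140, 125824, 131723, 147069, 168995,
  174244, 87457, 57674, 120150, 127368, 135263, 158297, 177350, 180388, 90518, 63010, 129659,
  141297, 169229, 182422, 184849, 92338, 66990, 150849, 179023, 186918, 188894, 94168, 82288,
  189527, 194434, 197925, 98324, 98321, 200960, 205977, 104111, 102315, 209390, 106286, 106785,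
  107530, 346094]

/-- masses after 90 generations -/
def pA_90 : List Nat :=
  [3247, 6917, 9103, 10621, 11936, 13192, 14421, 15645, 16880, 18130, 19388, 20602, 21799, 22855,
  23678, 24326, 9589, 7207, 19344, 23445, 26924, 30252, 33663, 37217, 40855, 44741, 48624, 52770,
  56791, 60793, 64247, 67257, 30769, 12542, 30660, 36042, 41083, 46168, 51577, 57097, 62872, 69196,
  75536, 82169, 88552, 93913, 99551, 49828, 18015, 42149, 48732, 55409, 62209, 69232, 76755, 84475,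
  92937, 101728, 109990, 116846, 125316, 63816, 23281, 53438, 61085, 69237, 77726, 86474, 95930,
  106348, 116995, 126777, 135557, 147646, 75489, 29147, 66186, 75611, 85349, 95882, 107385, 119689,
  131194, 142744, 154727, 169189, 86237, 35828, 80691, 91873, 103451, 116247, 130386, 144106,
  156688, 172823, 190116, 96393, 43413, 96766, 111290, 126971, 141544, 156664, 171906, 193658,
  210639, 105514, 52593, 117344, 134076, 152080, 168177, 187040, 212257, 229145, 115897, 63700,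
  141686, 160111, 178189, 203770, 233660, 250428, 126535, 76891, 169083, 190022, 222239, 253245,
  270048, 135780, 90484, 203107, 241199, 271814, 288293, 144815, 109787, 260085, 290442, 309280,
  155027, 139397, 309541, 331551, 167580, 162089, 348448, 178192, 181232, 185600, 377344]

end Pe

end Vale.Agent.P154
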